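import Vale.Agent.P154.Neg.Grid.Runs.Base
import Vale.Agent.P154.Neg.Grid.Runs.GG.Wit
import Vale.Agent.P154.Neg.Grid.Runs.GG.Agg
import Vale.Agent.P154.Neg.Grid.RunKids

/-!
# P154: checked witnesses of products of two grid atoms
-/

namespace Vale.Agent.P154.Neg.Grid.Runs.GG

def g4_p0 : okWitPart (mkPar 1 2).four w4 g4 26 0 = true := by decide +kernel

def g4_p1 : okWitPart (mkPar 1 2).four w4 g4 26 1 = true := by decide +kernel

def g4_p2 : okWitPart (mkPar 1 2).four w4 g4 26 2 = true := by decide +kernel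

def g4_p3 : okWitPart (mkPar 1 2).four w4 g4 26 3 = true := by decide +kernel

def g4_p4 : okWitPart (mkPar 1 2).four w4 g4 26 4 = true := by decide +kernel

def g4_p5 : okWitPart (mkPar 1 2).four w4 g4 26 5 = true := by decide +kernel

theorem g4_ok : okWit (mkPar 1 2).four w4 g4 = true :=
  okWit_of_parts (w := 26) (m := 6) (by decide) (by decide) fun i hi =>
    match i, hi with
    | 0, _ => g4_p0
    | 1, _ => g4_p1
    | 2, _ => g4_p2
    | 3, _ => g4_p3
    | 4, _ => g4_p4
    | 5, _ => g4_p5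

/-- The table serves every edge. -/
theorem four_ok (p q : ℕ) : ∃ w, okWit (mkPar p q).four w g4 = true :=
  ⟨w4, g4_ok⟩

end Vale.Agent.P154.Neg.Grid.Runs.GG
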